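import Vale.Agent.P299.H835.IX.Fock

/-!
# P281, T-HK (helper189): (2,0)-forms and (1,0)-forms in the Fock space

`pf2 M = ½ Σ M_ab dz_a ∧ dz_b`, `cf2 U` the antisymmetric coefficient matrix, `pf1`, `cf1` the same
in degree one.
-/

open scoped Matrix
open Vale.Agent.P299.IX Vale.Agent.P299.IX.Fock

noncomputable section

namespace Vale.Agent.P281.H189.HK

variable {n : ℕ}

/-- coefficients in degree one -/
def cf1 (V : FI n → ℂ) : Fin n → ℂ := fun a => (iot a *ᵥ V) ∅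

/-- coefficients in degree two -/
def cf2 (U : FI n → ℂ) : Matrix (Fin n) (Fin n) ℂ := Matrix.of fun a b => (iot b *ᵥ (iot a *ᵥ U)) ∅

/-- `Σ v_a dz_a` -/
def pf1 (v : Fin n → ℂ) : FI n → ℂ := ∑ a, v a • (eps a *ᵥ ev ∅)

/-- `½ Σ M_ab dz_a ∧ dz_b` -/
def pf2 (M : Matrix (Fin n) (Fin n) ℂ) : FI n → ℂ :=
  ∑ a, eps a *ᵥ ((1 / 2 : ℂ) • pf1 (M a))

theorem iot_eps_mulVec (k l : Fin n) (a : FI n → ℂ) :
    iot k *ᵥ (eps l *ᵥ a) = (if k = l then a else 0) - eps l *ᵥ (iot k *ᵥ a) := by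
  have h := congrArg (· *ᵥ a) (car k l)
  simp only [Matrix.add_mulVec, ← Matrix.mulVec_mulVec] at h
  rw [eq_sub_of_add_eq h]
  congr 1
  split_ifs
  · rw [Matrix.one_mulVec]
  · rw [Matrix.zero_mulVec]

theorem iot_iot_mulVec (k l : Fin n) (a : FI n → ℂ) :
    iot k *ᵥ (iot l *ᵥ a) = -(iot l *ᵥ (iot k *ᵥ a)) := by
  rw [Matrix.mulVec_mulVec, iot_iot, Matrix.neg_mulVec, ← Matrix.mulVec_mulVec]

theorem eps_eps_mulVec (k l : Fin n) (a : FI n → ℂ) :
    eps k *ᵥ (eps l *ᵥ a) = -(eps l *ᵥ (eps k *ᵥ a)) := by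
  rw [Matrix.mulVec_mulVec, eps_eps, Matrix.neg_mulVec, ← Matrix.mulVec_mulVec]

theorem cf1_pf1 (v : Fin n → ℂ) : cf1 (pf1 v) = v := by
  funext a
  rw [cf1, pf1, Matrix.mulVec_sum, Finset.sum_apply, Finset.sum_eq_single a]
  · rw [Matrix.mulVec_smul, iot_eps_mulVec, if_pos rfl, iot_ev_empty, Matrix.mulVec_zero, sub_zero]
    simp [ev]
  · intro b _ hb
    rw [Matrix.mulVec_smul, iot_eps_mulVec, if_neg hb.symm, iot_ev_empty, Matrix.mulVec_zero]
    simp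
  · intro h; exact absurd (Finset.mem_univ a) h

/-- coefficients of `Σ dz_l ∧ W_l` -/
theorem cf2_eps (W : Fin n → FI n → ℂ) (a b : Fin n) :
    cf2 (∑ l, eps l *ᵥ W l) a b = cf1 (W a) b - cf1 (W b) a := by
  have h1 : iot a *ᵥ (∑ l, eps l *ᵥ W l) = W a - ∑ l, eps l *ᵥ (iot a *ᵥ W l) := by
    rw [Matrix.mulVec_sum, Finset.sum_congr rfl fun l _ => iot_eps_mulVec a l (W l),
      Finset.sum_sub_distrib, Finset.sum_ite_eq]
    simp
  have h2 : iot b *ᵥ (∑ l, eps l *ᵥ (iot a *ᵥ W l)) =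
      iot a *ᵥ W b - ∑ l, eps l *ᵥ (iot b *ᵥ (iot a *ᵥ W l)) := by
    rw [Matrix.mulVec_sum, Finset.sum_congr rfl fun l _ => iot_eps_mulVec b l (iot a *ᵥ W l),
      Finset.sum_sub_distrib, Finset.sum_ite_eq]
    simp
  rw [cf2, Matrix.of_apply, h1, Matrix.mulVec_sub, h2]
  simp only [Pi.sub_apply, Finset.sum_apply, eps_mulVec_empty, Finset.sum_const_zero, sub_zero,
    cf1]

theorem cf2_pf2 {M : Matrix (Fin n) (Fin n) ℂ} (h : M.transpose = -M) : cf2 (pf2 M) = M := by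
  ext a b
  rw [pf2, cf2_eps]
  have h1 : ∀ (v : Fin n → ℂ) b, cf1 ((1 / 2 : ℂ) • pf1 v) b = 1 / 2 * v b := by
    intro v b
    have : cf1 ((1 / 2 : ℂ) • pf1 v) b = 1 / 2 * cf1 (pf1 v) b := by
      simp [cf1, Matrix.mulVec_smul]
    rw [this, cf1_pf1]
  rw [h1, h1]
  have h2 : M b a = -M a b := by
    have := congrFun (congrFun h a) b
    simpa using this
  rw [h2]; ring

theorem cf2_alt (U : FI n → ℂ) : (cf2 U).transpose = -cf2 U := by
  ext a b
  rw [Matrix.transpose_apply, Matrix.neg_apply, cf2, Matrix.of_apply, Matrix.of_apply,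
    iot_iot_mulVec]
  rfl

/-- if `Σ dz_l ∧ W_l = 0` then the cyclic sum of the coefficients is zero -/
theorem cf2_cyc {W : Fin n → FI n → ℂ} (h : ∑ l, eps l *ᵥ W l = 0) (a b c : Fin n) :
    cf2 (W c) a b + cf2 (W a) b c + cf2 (W b) c a = 0 := by
  have h1 : iot c *ᵥ (∑ l, eps l *ᵥ W l) = W c - ∑ l, eps l *ᵥ (iot c *ᵥ W l) := by
    rw [Matrix.mulVec_sum, Finset.sum_congr rfl fun l _ => iot_eps_mulVec c l (W l),
      Finset.sum_sub_distrib, Finset.sum_ite_eq]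
    simp
  rw [h, Matrix.mulVec_zero] at h1
  have h2 : W c = ∑ l, eps l *ᵥ (iot c *ᵥ W l) := (sub_eq_zero.1 h1.symm)
  have h3 : cf2 (W c) a b = cf1 (iot c *ᵥ W a) b - cf1 (iot c *ᵥ W b) a := by
    conv_lhs => rw [h2]
    exact cf2_eps _ a b
  have h4 : ∀ (X : FI n → ℂ) (p q : Fin n), cf1 (iot p *ᵥ X) q = cf2 X p q := fun _ _ _ => rfl
  have h5 : cf2 (W a) b c = -cf2 (W a) c b := by
    have := congrFun (congrFun (cf2_alt (W a)) c) b
    simpa using this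
  rw [h3, h4, h4, h5]; ring

theorem lam_empty (J : Matrix (Fin n) (Fin n) ℂ) (X : FI n → ℂ) : (lam J *ᵥ X) ∅ = X ∅ := by
  rw [Matrix.mulVec, dotProduct]
  simp [lam_apply_empty]

theorem iot_lam_mulVec (J : Matrix (Fin n) (Fin n) ℂ) (p : Fin n) (X : FI n → ℂ) :
    iot p *ᵥ (lam J *ᵥ X) = lam J *ᵥ (∑ l, J p l • (iot l *ᵥ X)) := by
  rw [Matrix.mulVec_mulVec, iot_lam, ← Matrix.mulVec_mulVec, Matrix.sum_mulVec]
  simp only [Matrix.smul_mulVec]

theorem cf1_lam (J : Matrix (Fin n) (Fin n) ℂ) (V : FI n → ℂ) :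
    cf1 (lam J.transpose *ᵥ V) = J.transpose *ᵥ cf1 V := by
  funext a
  rw [cf1, iot_lam_mulVec, lam_empty, Finset.sum_apply]
  rfl

theorem cf2_lam (J : Matrix (Fin n) (Fin n) ℂ) (U : FI n → ℂ) :
    cf2 (lam J.transpose *ᵥ U) = J.transpose * cf2 U * J := by
  ext a b
  rw [cf2, Matrix.of_apply, iot_lam_mulVec, iot_lam_mulVec, lam_empty, Matrix.mul_apply,
    Finset.sum_apply]
  refine Finset.sum_congr rfl fun l _ => ?_
  rw [Matrix.mulVec_sum, Pi.smul_apply, Finset.sum_apply, Matrix.mul_apply, smul_eq_mul,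
    Matrix.transpose_apply, mul_comm]
  congr 1
  refine Finset.sum_congr rfl fun k _ => ?_
  rw [Matrix.mulVec_smul, Pi.smul_apply, smul_eq_mul]
  rfl

theorem pf1_epsV (v : Fin n → ℂ) : pf1 v = epsV v *ᵥ ev ∅ := by
  rw [pf1, epsV, Matrix.sum_mulVec]
  simp only [Matrix.smul_mulVec]

theorem lam_pf1 (J : Matrix (Fin n) (Fin n) ℂ) (v : Fin n → ℂ) :
    lam J *ᵥ pf1 v = pf1 (J *ᵥ v) := by
  rw [pf1_epsV, Matrix.mulVec_mulVec, lam_epsV, ← Matrix.mulVec_mulVec, lam_ev_empty, pf1_epsV]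

theorem pf1_sum {κ : Type*} (s : Finset κ) (c : κ → ℂ) (v : κ → Fin n → ℂ) :
    ∑ k ∈ s, c k • pf1 (v k) = pf1 (∑ k ∈ s, c k • v k) := by
  simp only [pf1_epsV, epsV_sum, epsV_smul, Matrix.sum_mulVec, Matrix.smul_mulVec]

theorem lam_pf2 (J M : Matrix (Fin n) (Fin n) ℂ) :
    lam J.transpose *ᵥ pf2 M = pf2 (J.transpose * M * J) := by
  have h1 : ∀ a, lam J.transpose *ᵥ (eps a *ᵥ ((1 / 2 : ℂ) • pf1 (M a))) =
      ∑ k, eps k *ᵥ (J a k • (1 / 2 : ℂ) • pf1 (J.transpose *ᵥ M a)) := by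
    intro a
    rw [lam_eps_mulVec, Matrix.mulVec_smul, lam_pf1, epsV, Matrix.sum_mulVec]
    refine Finset.sum_congr rfl fun k _ => ?_
    rw [Matrix.smul_mulVec, Matrix.mulVec_smul (eps k) (J a k)]
    rfl
  rw [pf2, Matrix.mulVec_sum, Finset.sum_congr rfl fun a _ => h1 a, Finset.sum_comm, pf2]
  refine Finset.sum_congr rfl fun k _ => ?_
  rw [← Matrix.mulVec_sum]
  congr 1
  rw [Finset.sum_congr rfl fun a _ => smul_comm (J a k) (1 / 2 : ℂ) _, ← Finset.smul_sum, pf1_sum]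
  congr 2
  funext l
  rw [Finset.sum_apply, Matrix.mul_assoc, Matrix.mul_apply]
  refine Finset.sum_congr rfl fun a _ => ?_
  rw [Pi.smul_apply, smul_eq_mul, Matrix.transpose_apply, Matrix.mul_apply, Matrix.mulVec,
    dotProduct]
  congr 1
  refine Finset.sum_congr rfl fun b _ => ?_
  rw [Matrix.transpose_apply, mul_comm]

theorem pf2_eq (M : Matrix (Fin n) (Fin n) ℂ) :
    pf2 M = ∑ a, ∑ b, (1 / 2 * M a b) • (eps a *ᵥ (eps b *ᵥ ev ∅)) := by
  rw [pf2]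
  refine Finset.sum_congr rfl fun a _ => ?_
  rw [pf1, Finset.smul_sum, Matrix.mulVec_sum]
  refine Finset.sum_congr rfl fun b _ => ?_
  rw [smul_smul, Matrix.mulVec_smul]

/-- the degree is two -/
theorem pf2_deg (M : Matrix (Fin n) (Fin n) ℂ) {I : FI n} (hI : I.card ≠ 2) : pf2 M I = 0 := by
  rw [pf2_eq, Finset.sum_apply]
  refine Finset.sum_eq_zero fun a _ => ?_
  rw [Finset.sum_apply]
  refine Finset.sum_eq_zero fun b _ => ?_
  rw [Pi.smul_apply, eps_mulVec]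
  split_ifs with ha
  · rw [eps_mulVec]
    split_ifs with hb
    · have h1 : (I.erase a).erase b ≠ ∅ := by
        intro h
        apply hI
        have h2 := congrArg Finset.card h
        rw [Finset.card_erase_of_mem hb, Finset.card_erase_of_mem ha, Finset.card_empty] at h2
        have h3 : 1 < I.card := Finset.one_lt_card.2 ⟨a, ha, b, Finset.mem_of_mem_erase hb,
          (Finset.ne_of_mem_erase hb).symm⟩
        omega
      rw [show ev ∅ ((I.erase a).erase b) = 0 from Pi.single_eq_of_ne h1 _]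
      simp
    · simp
  · simp

/-- if the cyclic sums are zero then the form is `d'`-closed -/
theorem sum_eps_pf2 {c : Fin n → Matrix (Fin n) (Fin n) ℂ}
    (h : ∀ k a b, c k a b + c a b k + c b k a = 0) : ∑ k, eps k *ᵥ pf2 (c k) = 0 := by
  set G : Fin n → Fin n → Fin n → FI n → ℂ := fun k a b => eps k *ᵥ (eps a *ᵥ (eps b *ᵥ ev ∅))
    with hG
  have e1 : ∑ k, eps k *ᵥ pf2 (c k) = (1 / 2 : ℂ) • ∑ k, ∑ a, ∑ b, c k a b • G k a b := by
    rw [Finset.smul_sum]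
    refine Finset.sum_congr rfl fun k _ => ?_
    rw [pf2_eq, Matrix.mulVec_sum, Finset.smul_sum]
    refine Finset.sum_congr rfl fun a _ => ?_
    rw [Matrix.mulVec_sum, Finset.smul_sum]
    refine Finset.sum_congr rfl fun b _ => ?_
    rw [Matrix.mulVec_smul, smul_smul]
  have hG1 : ∀ k a b, G a b k = G k a b := by
    intro k a b
    simp only [hG]
    rw [eps_eps_mulVec b k, Matrix.mulVec_neg, eps_eps_mulVec a k, neg_neg]
  have cyc : ∀ F : Fin n → Fin n → Fin n → FI n → ℂ,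
      ∑ k, ∑ a, ∑ b, F a b k = ∑ k, ∑ a, ∑ b, F k a b := by
    intro F
    rw [Finset.sum_comm]
    refine Finset.sum_congr rfl fun a _ => ?_
    rw [Finset.sum_comm]
  have e2 : ∑ k, ∑ a, ∑ b, c k a b • G k a b = ∑ k, ∑ a, ∑ b, c a b k • G k a b := by
    rw [← cyc fun k a b => c k a b • G k a b]
    refine Finset.sum_congr rfl fun k _ => Finset.sum_congr rfl fun a _ =>
      Finset.sum_congr rfl fun b _ => ?_
    show c a b k • G a b k = _
    rw [hG1 k a b]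
  have e3 : ∑ k, ∑ a, ∑ b, c k a b • G k a b = ∑ k, ∑ a, ∑ b, c b k a • G k a b := by
    rw [← cyc fun k a b => c b k a • G k a b]
    refine Finset.sum_congr rfl fun k _ => Finset.sum_congr rfl fun a _ =>
      Finset.sum_congr rfl fun b _ => ?_
    show _ = c k a b • G a b k
    rw [hG1 k a b]
  have e4 : (3 : ℂ) • ∑ k, ∑ a, ∑ b, c k a b • G k a b = 0 := by
    have : (3 : ℂ) • ∑ k, ∑ a, ∑ b, c k a b • G k a b = ∑ k, ∑ a, ∑ b, c k a b • G k a b +
        ∑ k, ∑ a, ∑ b, c a b k • G k a b + ∑ k, ∑ a, ∑ b, c b k a • G k a b := by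
      rw [← e2, ← e3]; module
    rw [this, ← Finset.sum_add_distrib, ← Finset.sum_add_distrib]
    refine Finset.sum_eq_zero fun k _ => ?_
    rw [← Finset.sum_add_distrib, ← Finset.sum_add_distrib]
    refine Finset.sum_eq_zero fun a _ => ?_
    rw [← Finset.sum_add_distrib, ← Finset.sum_add_distrib]
    refine Finset.sum_eq_zero fun b _ => ?_
    rw [← add_smul, ← add_smul, h, zero_smul]
  rw [e1, (smul_eq_zero.1 e4).resolve_left (by norm_num), smul_zero]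

theorem norm_sg (l : Fin n) (I : FI n) : ‖Vale.Agent.P299.IX.sg l I‖ = 1 := by
  unfold Vale.Agent.P299.IX.sg
  rw [norm_pow, norm_neg, norm_one, one_pow]

theorem norm_iot_le (a : Fin n) (X : FI n → ℂ) (I : FI n) :
    ‖(iot a *ᵥ X) I‖ ≤ ‖X (insert a I)‖ := by
  rw [iot_mulVec]
  split_ifs
  · rw [norm_zero]; positivity
  · rw [norm_mul, norm_sg, one_mul]

theorem norm_cf2_le (U : FI n → ℂ) (a b : Fin n) : ‖cf2 U a b‖ ^ 2 ≤ ∑ I, ‖U I‖ ^ 2 := by
  have h1 : ‖cf2 U a b‖ ≤ ‖U (insert a (insert b ∅))‖ :=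
    (norm_iot_le b _ _).trans (norm_iot_le a U _)
  calc ‖cf2 U a b‖ ^ 2 ≤ ‖U (insert a (insert b ∅))‖ ^ 2 := by gcongr
    _ ≤ _ := Finset.single_le_sum (f := fun I => ‖U I‖ ^ 2) (fun I _ => by positivity)
        (Finset.mem_univ _)

theorem cf2_sub (U V : FI n → ℂ) : cf2 (U - V) = cf2 U - cf2 V := by
  ext a b
  simp [cf2, Matrix.mulVec_sub]

end Vale.Agent.P281.H189.HK
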