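import Vale.Agent.P281.H189.HK.Est
import Vale.Agent.P281.H189.HK.Alg
import Vale.Agent.P281.H89.HK.Hd
import Vale.Agent.P281.H83.HK.Defs

/-!
# P281, T-HK, block HT (helper89, helper189): Hodge decomposition of `d'`-closed (2,0)-forms

`E` compact Kähler (sheets). A smooth `d'`-closed form `u` of type (2,0) is `h + lim d'v`, `h` a closed
holomorphic 2-form, `v` smooth of type (1,0), the limit in `L²`.
-/

open Set Filter Metric MeasureTheory Vale.Agent.P272.K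
open scoped Topology ContDiff ComplexConjugate ComplexOrder Manifold Matrix

set_option linter.unusedSectionVars false

noncomputable section

namespace Vale.Agent.P281.H189.HK

attribute [local instance] instTop instT2 instCh instMan instCpt

open Vale.Agent.P281.H64.TK Vale.Agent.P281.H842.TS Vale.Agent.P281.H842.HK Vale.Agent.P281.H83.HK
open Vale.Agent.P301.H599 Vale.Agent.P301.H862 Vale.Agent.P299.IX Vale.Agent.P299.IX.Fock
open Vale.Agent.P299.H954 Vale.Agent.P272.K.C2 Vale.Agent.P299.H863 Vale.Agent.P301.H85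

/-! ### local calculus -/

section loc

variable {n : ℕ} {z : Cm n}

theorem dz_cf1 {V : Cm n → FI n → ℂ} (h : VC 1 V z) (l a : Fin n) :
    dz l (fun y => cf1 (V y) a) z = cf1 (DV l V z) a :=
  congrFun (DV_constMul (l := l) (iot a) h) ∅

theorem dz_cf2 {U : Cm n → FI n → ℂ} (h : VC 1 U z) (l a b : Fin n) :
    dz l (fun y => cf2 (U y) a b) z = cf2 (DV l U z) a b := by
  have h1 := DV_constMul (l := l) (iot b) (VC_constMul (iot a) h)
  rw [DV_constMul (iot a) h] at h1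
  exact congrFun h1 ∅

theorem DV_pf2 {u : Cm n → Matrix (Fin n) (Fin n) ℂ} (h : ∀ a b, ContDiffAt ℝ 1 (fun y => u y a b) z)
    (l : Fin n) : DV l (fun y => pf2 (u y)) z = pf2 (Matrix.of fun a b => dz l (fun y => u y a b) z) := by
  have h0 : ∀ a b : Fin n, VC 1 (fun _ : Cm n => eps a *ᵥ (eps b *ᵥ ev ∅)) z :=
    fun a b _ => contDiffAt_const
  have h1 : ∀ a b, ContDiffAt ℝ 1 (fun y => (1 / 2 : ℂ) * u y a b) z := fun a b =>
    contDiffAt_const.mul (h a b)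
  have e : (fun y => pf2 (u y)) = fun y => ∑ a, ∑ b, (1 / 2 * u y a b) • (eps a *ᵥ (eps b *ᵥ ev ∅)) :=
    funext fun y => pf2_eq (u y)
  rw [e, DV_sum _ fun a _ => VC.sum _ fun b _ => VC.smul (h1 a b) (h0 a b), pf2_eq]
  refine Finset.sum_congr rfl fun a _ => ?_
  rw [DV_sum _ fun b _ => VC.smul (h1 a b) (h0 a b)]
  refine Finset.sum_congr rfl fun b _ => ?_
  rw [DV_smul (h1 a b) (h0 a b)]
  have h3 : DV l (fun _ : Cm n => eps a *ᵥ (eps b *ᵥ ev ∅)) z = 0 := by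
    funext I; exact C2.dz_const l _
  rw [h3, smul_zero, C2.dz_const_mul l _ ((h a b).differentiableAt (by norm_num)), Matrix.of_apply,
    add_zero]

end loc

variable {d : ℕ} {E Γ : Type} [TopologicalSpace E] [Group Γ] [Subsingleton Γ] [MulAction Γ E]

/-- `u` is a smooth form of type (2,0): `(1/2) ∑ u_{jk} dz_j ∧ dz_k`. -/
structure Sm2 (S : Sheets d E Γ) (u : Fin S.N → Cm d → Matrix (Fin d) (Fin d) ℂ) : Prop where
  smooth : ∀ i j k, ContDiffOn ℝ ∞ (fun z => u i z j k) (ball 0 3)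
  alt : ∀ i, ∀ z ∈ ball (0 : Cm d) 3, (u i z).transpose = -u i z
  change : ∀ i j, ∀ z ∈ ball (0 : Cm d) 3, ∀ z' ∈ ball (0 : Cm d) 3, ∀ θ : Cm d → Cm d,
    AnalyticAt ℂ θ z → θ z = z' → (∀ᶠ u in 𝓝 z, S.σ i u = S.σ j (θ u)) →
      u i z = (jac θ z).transpose * u j z' * jac θ z

/-- `v` is a smooth form of type (1,0): `∑ v_j dz_j`. -/
structure Sm1 (S : Sheets d E Γ) (v : Fin S.N → Cm d → Fin d → ℂ) : Prop where
  smooth : ∀ i j, ContDiffOn ℝ ∞ (fun z => v i z j) (ball 0 3)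
  change : ∀ i j, ∀ z ∈ ball (0 : Cm d) 3, ∀ z' ∈ ball (0 : Cm d) 3, ∀ θ : Cm d → Cm d,
    AnalyticAt ℂ θ z → θ z = z' → (∀ᶠ u in 𝓝 z, S.σ i u = S.σ j (θ u)) →
      v i z = (jac θ z).transpose *ᵥ v j z'

variable {S : Sheets d E Γ} {w : Fin S.N → Cm d → Matrix (Fin d) (Fin d) ℂ} {hw : Kah S w}
  {u : Fin S.N → Cm d → Matrix (Fin d) (Fin d) ℂ} {i j : Fin S.N} {z : Cm d}

theorem smF_pf2 (hu : Sm2 S u) : SmF S (fun i z => pf2 (u i z)) where
  smooth i I := by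
    have e : (fun z => pf2 (u i z) I) = fun z => ∑ a, ∑ b,
        (1 / 2 * u i z a b) * (eps a *ᵥ (eps b *ᵥ ev ∅)) I := by
      funext z
      rw [pf2_eq, Finset.sum_apply]
      refine Finset.sum_congr rfl fun a _ => ?_
      rw [Finset.sum_apply]
      rfl
    rw [e]
    exact ContDiffOn.sum fun a _ => ContDiffOn.sum fun b _ =>
      (contDiffOn_const.mul (hu.smooth i a b)).mul contDiffOn_const
  change i j z hz z' hz' θ hθ he h := by
    show pf2 (u i z) = _ *ᵥ pf2 (u j z')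
    rw [hu.change i j z hz z' hz' θ hθ he h, lam_pf2]

theorem vc_ofS (s : (HBs hw).S) (hz : z ∈ ball (0 : Cm d) 3) {m : WithTop ℕ∞} (hm : m ≤ ∞) :
    VC m (ofS s i) z := fun I =>
  (((smF_ofS s).smooth i I).contDiffAt (isOpen_ball.mem_nhds hz)).of_le hm

theorem one_le_inf : (1 : WithTop ℕ∞) ≤ ∞ := by norm_cast

theorem cf2_smul (c : ℂ) (U : FI d → ℂ) : cf2 (c • U) = c • cf2 U := by
  ext a b
  simp [cf2, Matrix.mulVec_smul]

theorem dd_eq_dz {h : Cm d → ℂ} (hh : DifferentiableAt ℂ h z) (k : Fin d) : dd k h z = dz k h z :=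
  (INT.dz_of_holo hh k).symm

variable [T2Space E]

theorem hol_ofS {s : (HBs hw).S} {p : ℕ} (hs : s ∈ (HBs hw).kerd p) (hz : z ∈ ball (0 : Cm d) 3)
    (I : FI d) : AnalyticAt ℂ (fun y => ofS s i y I) z := by
  have h1 := (HB.isHolF_frm hs).holo (ch S i) (sg S i z) (ch_at hz) I
  rw [ch_apply hz] at h1
  exact h1

theorem hol_cf2 {U : Cm d → FI d → ℂ} (h : ∀ I, AnalyticAt ℂ (fun y => U y I) z) (a b : Fin d) :
    AnalyticAt ℂ (fun y => cf2 (U y) a b) z := by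
  have e : (fun y => cf2 (U y) a b) = fun y => ∑ I, (iot b * iot a) ∅ I * U y I := by
    funext y
    show (iot b *ᵥ (iot a *ᵥ U y)) ∅ = _
    rw [Matrix.mulVec_mulVec]
    rfl
  rw [e]
  exact Finset.analyticAt_fun_sum _ fun I _ => analyticAt_const.mul (h I)

/-- a harmonic section of degree 2 is a closed holomorphic 2-form -/
theorem hol2_cf2 {s : (HBs hw).S} (hs : s ∈ (HBs hw).kerd 2) :
    H83.HK.Hol2 S (fun i z => cf2 (ofS s i z)) where
  hol i j k z hz := (hol_cf2 (fun I => hol_ofS hs hz I) j k).differentiableAt.differentiableWithinAt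
  alt i z _ := cf2_alt _
  closed i z hz j k l := by
    have hA : ∀ a b, DifferentiableAt ℂ (fun y => cf2 (ofS s i y) a b) z := fun a b =>
      (hol_cf2 (fun I => hol_ofS hs hz I) a b).differentiableAt
    have hV := vc_ofS (i := i) s hz one_le_inf
    rw [dd_eq_dz (hA j k), dd_eq_dz (hA k l), dd_eq_dz (hA l j), dz_cf2 hV, dz_cf2 hV, dz_cf2 hV]
    have h1 := (Vale.Agent.P281.H89.HK.Dp_of_D (HB.mem_kerd.1 hs).1).1
    have h2 := ofS_Dp (i := i) s hz
    rw [h1] at h2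
    exact cf2_cyc h2.symm j k l
  change i j z hz z' hz' θ hθ he h := by
    show cf2 (ofS s i z) = _ * cf2 (ofS s j z') * _
    rw [(smF_ofS s).change i j z hz z' hz' θ hθ he h, cf2_lam]

theorem sm1_cf1 (s : (HBs hw).S) : Sm1 S (fun i z => cf1 (ofS s i z)) where
  smooth i a z hz := by
    have h1 := VC_constMul (iot a) (vc_ofS (i := i) s hz le_rfl)
    exact (h1 ∅).contDiffWithinAt
  change i j z hz z' hz' θ hθ he h := by
    show cf1 (ofS s i z) = _ *ᵥ cf1 (ofS s j z')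
    rw [(smF_ofS s).change i j z hz z' hz' θ hθ he h, cf1_lam]

theorem cf2_Dp (s : (HBs hw).S) (hz : z ∈ ball (0 : Cm d) 3) (a b : Fin d) :
    cf2 (ofS ((HBs hw).Dp s) i z) a b =
      dz a (fun y => cf1 (ofS s i y) b) z - dz b (fun y => cf1 (ofS s i y) a) z := by
  have hV := vc_ofS (i := i) s hz one_le_inf
  rw [ofS_Dp s hz, cf2_eps, dz_cf1 hV, dz_cf1 hV]

theorem meas_P' (i : Fin S.N) : MeasurableSet (S.P i) := by
  have : ContinuousConstSMul Γ E := ⟨fun γ => by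
    have : (fun e : E => γ • e) = id := funext fun e => sm1 γ e
    rw [this]; exact continuous_id⟩
  exact Vale.Agent.P281.H864.K.meas_P S i

theorem contOn_sq (s : (HBs hw).S) : ContinuousOn (fun z => ∑ I, ‖ofS s i z I‖ ^ 2)
    (closedBall 0 1) := by
  refine continuousOn_finsetSum _ fun I _ => ?_
  exact ((((smF_ofS s).smooth i I).continuousOn.mono
    (closedBall_subset_ball (by norm_num))).norm).pow 2

/-- the theorem of helper89, on the sheets -/
theorem hodgeS (hw : Kah S w) (p : ℕ) {s : (HBs hw).S} (hs : (HBs hw).dg (p + 1) s = s)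
    (hc : (HBs hw).Dp s = 0) : ∃ h ∈ (HBs hw).kerd (p + 1), ∀ ε : ℝ, 0 < ε →
      ∃ v : (HBs hw).S, (HBs hw).dg p v = v ∧ ‖s - h - (HBs hw).Dp v‖ ≤ ε :=
  Vale.Agent.P281.H89.HK.hodge (trivB (X := MF S) (@isKahler d E Γ _ _ _ _ S w hw)) p hs hc

theorem toS_dg (hu : Sm2 S u) : (HBs hw).dg 2 (toS hw (smF_pf2 hu)) = toS hw (smF_pf2 hu) :=
  ofS_ext fun i z hz => by
    funext I
    rw [ofS_dg _ _ hz]
    split_ifs with hI
    · rfl
    · rw [ofS_toS (smF_pf2 hu) hz, pf2_deg _ hI]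

theorem toS_Dp (hu : Sm2 S u)
    (hc : ∀ i, ∀ z ∈ ball (0 : Cm d) 3, ∀ j k l, dz l (fun z => u i z j k) z +
      dz j (fun z => u i z k l) z + dz k (fun z => u i z l j) z = 0) :
    (HBs hw).Dp (toS hw (smF_pf2 hu)) = 0 := ofS_ext fun i z hz => by
  rw [ofS_Dp _ hz]
  have h1 : ∀ l, DV l (ofS (toS hw (smF_pf2 hu)) i) z =
      pf2 (Matrix.of fun a b => dz l (fun y => u i y a b) z) := by
    intro l
    rw [← DV_pf2 fun a b => (((hu.smooth i a b).contDiffAt (isOpen_ball.mem_nhds hz)).of_le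
      one_le_inf)]
    refine DV_congr ?_
    filter_upwards [isOpen_ball.mem_nhds hz] with y hy
    exact ofS_toS (smF_pf2 hu) hy
  simp only [h1]
  exact sum_eps_pf2 fun k a b => hc i z hz a b k

/-- the coefficients of the difference -/
theorem cf2_diff (hu : Sm2 S u) (h v : (HBs hw).S) (hz : z ∈ ball (0 : Cm d) 3) (j k : Fin d) :
    u i z j k - cf2 (ofS h i z) j k -
        (dz j (fun y => cf1 (ofS v i y) k) z - dz k (fun y => cf1 (ofS v i y) j) z) =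
      cf2 (ofS (toS hw (smF_pf2 hu) - h - (HBs hw).Dp v) i z) j k := by
  have e2 : ofS (toS hw (smF_pf2 hu) - h - (HBs hw).Dp v) i z =
      ofS (toS hw (smF_pf2 hu)) i z - ofS h i z - ofS ((HBs hw).Dp v) i z := rfl
  rw [e2, cf2_sub, cf2_sub, Matrix.sub_apply, Matrix.sub_apply, ofS_toS (smF_pf2 hu) hz,
    cf2_pf2 (hu.alt i z hz), cf2_Dp v hz]

theorem sum_cf2_le (U : FI d → ℂ) : ∑ j, ∑ k, ‖cf2 U j k‖ ^ 2 ≤ (d : ℝ) ^ 2 * ∑ I, ‖U I‖ ^ 2 := by
  calc ∑ j, ∑ k, ‖cf2 U j k‖ ^ 2 ≤ ∑ j : Fin d, ∑ k : Fin d, ∑ I, ‖U I‖ ^ 2 :=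
        Finset.sum_le_sum fun j _ => Finset.sum_le_sum fun k _ => norm_cf2_le _ j k
    _ = _ := by
        simp only [Finset.sum_const, Finset.card_univ, Fintype.card_fin, nsmul_eq_mul]
        ring

theorem int_cf2_le (t : (HBs hw).S) {F : Cm d → ℝ} (h0 : ∀ z, 0 ≤ F z)
    (hF : ∀ z ∈ ball (0 : Cm d) 3, F z ≤ ∑ j, ∑ k, ‖cf2 (ofS t i z) j k‖ ^ 2) :
    ∫ z in S.P i, F z ≤ (d : ℝ) ^ 2 * ∫ z in S.P i, ∑ I, ‖ofS t i z I‖ ^ 2 := by
  rw [← integral_const_mul]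
  refine integral_mono_of_nonneg (Eventually.of_forall h0) ?_ ?_
  · exact (((contOn_sq t).integrableOn_compact (isCompact_closedBall 0 1)).mono_set
      fun z hz => mem_closedBall_zero_iff.2 hz.1.le).const_mul _
  · refine (ae_restrict_iff' (meas_P' i)).2 (Eventually.of_forall fun z hz => ?_)
    exact (hF z (Vale.Agent.P281.H864.K.P_subset3 S i hz)).trans (sum_cf2_le _)

/-- **Block HT.** -/
theorem hodge20 (hw : Kah S w) (hu : Sm2 S u)
    (hc : ∀ i, ∀ z ∈ ball (0 : Cm d) 3, ∀ j k l, dz l (fun z => u i z j k) z +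
      dz j (fun z => u i z k l) z + dz k (fun z => u i z l j) z = 0) :
    ∃ h, H83.HK.Hol2 S h ∧ ∀ ε : ℝ, 0 < ε → ∃ v : Fin S.N → Cm d → Fin d → ℂ, Sm1 S v ∧
      ∑ i, ∫ z in S.P i, ∑ j, ∑ k, ‖u i z j k - h i z j k -
        (dz j (fun y => v i y k) z - dz k (fun y => v i y j) z)‖ ^ 2 ≤ ε := by
  obtain ⟨h, hh, H⟩ := hodgeS hw 1 (toS_dg (hw := hw) hu) (toS_Dp (hw := hw) hu hc)
  obtain ⟨C, hC0, hC⟩ := exists_nsq_le hw (fun i => meas_P' (S := S) i)
  refine ⟨fun i z => cf2 (ofS h i z), hol2_cf2 hh, fun ε hε => ?_⟩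
  set D : ℝ := (d : ℝ) ^ 2 * C + 1 with hD
  have hD0 : 0 < D := by positivity
  obtain ⟨v, -, hv⟩ := H (Real.sqrt (ε / D)) (Real.sqrt_pos.2 (div_pos hε hD0))
  refine ⟨fun i z => cf1 (ofS v i z), sm1_cf1 v, ?_⟩
  have hint : ∀ i, ∫ z in S.P i, ∑ j, ∑ k, ‖u i z j k - cf2 (ofS h i z) j k -
      (dz j (fun y => cf1 (ofS v i y) k) z - dz k (fun y => cf1 (ofS v i y) j) z)‖ ^ 2 ≤
      (d : ℝ) ^ 2 * ∫ z in S.P i,
        ∑ I, ‖ofS (toS hw (smF_pf2 hu) - h - (HBs hw).Dp v) i z I‖ ^ 2 := by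
    intro i
    refine int_cf2_le _ (fun z => ?_) fun z hz => ?_
    · exact Finset.sum_nonneg fun j _ => Finset.sum_nonneg fun k _ => by positivity
    · exact (Finset.sum_congr rfl fun j _ => Finset.sum_congr rfl fun k _ => by
        rw [cf2_diff hu h v hz]).le
  have h1 : ‖toS hw (smF_pf2 hu) - h - (HBs hw).Dp v‖ ^ 2 ≤ ε / D := by
    calc _ ≤ Real.sqrt (ε / D) ^ 2 := by gcongr
      _ = ε / D := Real.sq_sqrt (div_pos hε hD0).le
  have h2 := hC (toS hw (smF_pf2 hu) - h - (HBs hw).Dp v)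
  have h3 : (d : ℝ) ^ 2 * (C * (ε / D)) ≤ ε := by
    rw [← mul_assoc, mul_div_assoc', div_le_iff₀ hD0, hD]
    nlinarith
  refine (Finset.sum_le_sum fun i _ => hint i).trans ?_
  rw [← Finset.mul_sum]
  refine le_trans ?_ h3
  refine mul_le_mul_of_nonneg_left ?_ (by positivity)
  exact h2.trans (mul_le_mul_of_nonneg_left h1 hC0)

end Vale.Agent.P281.H189.HK
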