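import Vale.Agent.P281.H189.HK.Mf

/-!
# P281, T-HK (helper189): the `L²` norm of P301 dominates the `L²` norm over the sheets
-/

open Set Filter Metric MeasureTheory Vale.Agent.P272.K
open scoped Topology ContDiff ComplexConjugate ComplexOrder Manifold Matrix

set_option linter.unusedSectionVars false

noncomputable section

namespace Vale.Agent.P281.H189.HK

attribute [local instance] instTop instT2 instCh instMan instCpt

open Vale.Agent.P281.H64.TK Vale.Agent.P281.H842.TS Vale.Agent.P281.H842.HK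
open Vale.Agent.P301.H599 Vale.Agent.P301.H862 Vale.Agent.P299.IX Vale.Agent.P299.IX.Fock
open Vale.Agent.P299.H954 Vale.Agent.P272.K.C2 Vale.Agent.P299.H863
open Vale.Agent.P272.K.INT (intX IsDensity intX_add intX_sub intX_const_mul intX_congr intX_nonneg
  intX_mono intX_of_support intX_sum integrableOn_dens)

section lower

variable {d : ℕ} {X : Type} [TopologicalSpace X] [ChartedSpace (Cm d) X] {ι : Type}
  [IsManifold 𝓘(ℂ, Cm d) ω X] [T2Space X] [CompactSpace X]

theorem exists_hw_lower (B : HB d X ι) {i : ι} {e : Chart d X} (he : e ∈ atlas (Cm d) X)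
    {K : Set (Cm d)} (hK : IsCompact K) (hKe : K ⊆ dom B.L i e) :
    ∃ m : ℝ, 0 < m ∧ ∀ z ∈ K, ∀ v : FI d → ℂ,
      m * ∑ I, ‖v I‖ ^ 2 ≤ (hw (wt B.ρ i e) (B.w e) z v v).re := by
  have hG := (B.contDiffOn_GG i he).continuousOn.mono hKe
  obtain ⟨m, hm, hmb⟩ := exists_lower hK hG fun z hz v hv => by
    rw [HB.inner_GG]
    exact hw_pos (B.katz he (hKe hz)) fun h => hv (by ext j; exact congrFun h j)
  refine ⟨m, hm, fun z hz v => ?_⟩
  have h5 := hmb z hz (WithLp.toLp 2 v)
  rw [HB.inner_GG, EuclideanSpace.norm_sq_eq] at h5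
  exact h5

end lower

variable {d : ℕ} {E Γ : Type} [TopologicalSpace E] [T2Space E] [Group Γ] [Subsingleton Γ]
  [MulAction Γ E] {S : Sheets d E Γ} {w : Fin S.N → Cm d → Matrix (Fin d) (Fin d) ℂ}
  {hw : Kah S w} {i j : Fin S.N} {z : Cm d}

theorem isCompact_sg (i : Fin S.N) {r : ℝ} (hr : r < 3) : IsCompact (sg S i '' closedBall 0 r) := by
  refine (isCompact_closedBall (0 : Cm d) r).image_of_continuousOn ?_
  intro z hz
  exact (sig_cont S i (closedBall_subset_ball hr hz)).continuousWithinAt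

theorem isOpen_sg (i : Fin S.N) {U : Set (Cm d)} (hU : IsOpen U) (h : U ⊆ ball 0 3) :
    IsOpen (sg S i '' U) := by
  rw [isOpen_iff_mem_nhds]
  rintro _ ⟨z, hz, rfl⟩
  have h3 := S.map_nhds i z (h hz)
  show S.σ i '' U ∈ 𝓝 (S.σ i z)
  rw [← h3]
  exact image_mem_map (hU.mem_nhds hz)

theorem exists_cut (i : Fin S.N) : ∃ f : MF S → ℝ, Continuous f ∧ (∀ x, 0 ≤ f x) ∧ (∀ x, f x ≤ 1) ∧
    (∀ z ∈ closedBall (0 : Cm d) 1, f (sg S i z) = 1) ∧
    ∀ x, x ∉ sg S i '' closedBall 0 2 → f x = 0 := by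
  have h1 : IsClosed (sg S i '' ball 0 2)ᶜ :=
    (isOpen_sg i isOpen_ball (ball_subset_ball (by norm_num))).isClosed_compl
  have h2 : IsClosed (sg S i '' closedBall 0 1) := (isCompact_sg i (by norm_num)).isClosed
  have h3 : Disjoint (sg S i '' ball 0 2)ᶜ (sg S i '' closedBall 0 1) := by
    rw [disjoint_compl_left_iff_subset]
    exact image_mono (closedBall_subset_ball (by norm_num))
  obtain ⟨f, hf0, hf1, hf⟩ := exists_continuous_zero_one_of_isClosed h1 h2 h3
  refine ⟨f, f.continuous, fun x => (hf x).1, fun x => (hf x).2, fun z hz => hf1 ⟨z, hz, rfl⟩,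
    fun x hx => hf0 fun h => hx ?_⟩
  exact image_mono ball_subset_closedBall h

/-- the `L²` norm over the sheets -/
def nsq (S : Sheets d E Γ) (u : Fin S.N → Cm d → FI d → ℂ) : ℝ :=
  ∑ i, ∫ z in S.P i, ∑ I, ‖u i z I‖ ^ 2

theorem le_intX {D : Chart d (MF S) → Cm d → ℝ} (hD : IsDensity D)
    (h0 : ∀ e x, At e x → 0 ≤ D e (e x)) {F : Cm d → ℝ} (hF : ContinuousOn F (closedBall 0 1))
    {c : ℝ} (hc : 0 ≤ c) (hFD : ∀ z ∈ closedBall (0 : Cm d) 1, F z ≤ c * D (ch S i) z)
    (hm : MeasurableSet (S.P i)) : ∫ z in S.P i, F z ≤ c * intX D := by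
  obtain ⟨f, hf, f0, f1, fe, fs⟩ := exists_cut (S := S) i
  have hsub : S.P i ⊆ closedBall 0 1 := fun z hz => mem_closedBall_zero_iff.2 hz.1.le
  have hts : tsupport f ⊆ sg S i '' closedBall 0 2 := by
    refine closure_minimal (fun x hx => ?_) (isCompact_sg i (by norm_num)).isClosed
    by_contra h
    exact hx (fs x h)
  have hsrc : sg S i '' closedBall 0 2 ⊆ (ch S i).source := by
    rw [ch_source]; exact image_mono (closedBall_subset_ball (by norm_num))
  have hI := integrableOn_dens hD (ch_mem S i) hf (hts.trans hsrc)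
  rw [ch_target] at hI
  have hDf := hD.smul hf
  have e1 : intX (fun e z => f (e.symm z) * D e z) = ∫ z in ball (0 : Cm d) 3,
      f (sg S i z) * D (ch S i) z := by
    rw [intX_of_support hDf (ch_mem S i) (isCompact_sg (i := i) (by norm_num)).isClosed hsrc
      (fun e' x hx hxK => by
        show f (e'.symm (e' x)) * _ = 0
        rw [hx.left_inv, fs x hxK, zero_mul]), ch_target]
    rfl
  have e2 : intX (fun e z => f (e.symm z) * D e z) ≤ intX D := by
    refine intX_mono hDf hD fun e x hx => ?_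
    show f (e.symm (e x)) * _ ≤ _
    rw [hx.left_inv]
    exact mul_le_of_le_one_left (h0 e x hx) (f1 x)
  have hnn : ∀ z ∈ ball (0 : Cm d) 3, 0 ≤ f (sg S i z) * D (ch S i) z := by
    intro z hz
    have := h0 _ _ (ch_at (i := i) hz)
    rw [ch_apply hz] at this
    exact mul_nonneg (f0 _) this
  have e3 : ∫ z in S.P i, F z ≤ ∫ z in S.P i, c * (f (sg S i z) * D (ch S i) z) := by
    refine setIntegral_mono_on ?_ ?_ hm fun z hz => ?_
    · exact (hF.integrableOn_compact (isCompact_closedBall 0 1)).mono_set hsub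
    · exact (hI.mono_set (hsub.trans (closedBall_subset_ball (by norm_num)))).const_mul c
    · rw [fe z (hsub hz), one_mul]; exact hFD z (hsub hz)
  have e4 : ∫ z in S.P i, (f (sg S i z) * D (ch S i) z) ≤
      ∫ z in ball (0 : Cm d) 3, f (sg S i z) * D (ch S i) z := by
    refine setIntegral_mono_set hI ?_ ?_
    · exact (ae_restrict_iff' measurableSet_ball).2 (Eventually.of_forall hnn)
    · exact (hsub.trans (closedBall_subset_ball (by norm_num))).eventuallyLE
  rw [integral_const_mul] at e3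
  calc ∫ z in S.P i, F z ≤ _ := e3
    _ ≤ c * intX D := by
      refine mul_le_mul_of_nonneg_left ?_ hc
      rw [e1] at e2
      exact e4.trans e2

/-- **The norm of P301 dominates the norm over the sheets.** -/
theorem exists_nsq_le (hw : Kah S w) (hm : ∀ i, MeasurableSet (S.P i)) :
    ∃ C : ℝ, 0 ≤ C ∧ ∀ s : (HBs hw).S, nsq S (ofS s) ≤ C * ‖s‖ ^ 2 := by
  have h1 : ∀ i : Fin S.N, ∃ m : ℝ, 0 < m ∧ ∀ z ∈ closedBall (0 : Cm d) 1, ∀ v : FI d → ℂ,
      m * ∑ I, ‖v I‖ ^ 2 ≤ (P301.H862.hw (wt (HBs hw).ρ () (ch S i)) ((HBs hw).w (ch S i)) z v v).re :=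
    fun i => exists_hw_lower (HBs hw) (ch_mem S i) (isCompact_closedBall 0 1) fun z hz => by
      have hz3 := closedBall_subset_ball (show (1 : ℝ) < 3 by norm_num) hz
      have := mem_dom (ch_at (i := i) hz3) (hbs_U (hw := hw) (sg S i z) ())
      rwa [ch_apply hz3] at this
  choose m hm0 hmb using h1
  refine ⟨∑ i, (m i)⁻¹, Finset.sum_nonneg fun i _ => (inv_pos.2 (hm0 i)).le, fun s => ?_⟩
  have hD := ((HBs hw).dens s.isSec s.isSec)
  rw [nsq, HB.norm_sq_eq', Finset.sum_mul]
  refine Finset.sum_le_sum fun i _ => ?_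
  refine le_intX hD.isDensity_re (fun e x hx => ?_) ?_ (inv_pos.2 (hm0 i)).le (fun z hz => ?_) (hm i)
  · rw [reD_eq hD hx (mem_ix _ x)]
    exact hw_nonneg (kat (HBs hw).kahler hx) _
  · refine continuousOn_finsetSum _ fun I _ => ?_
    exact ((((smF_ofS s).smooth i I).continuousOn.mono
      (closedBall_subset_ball (by norm_num))).norm).pow 2
  · have hz3 := closedBall_subset_ball (show (1 : ℝ) < 3 by norm_num) hz
    have h2 := reD_eq hD (ch_at (i := i) hz3) (hbs_U (hw := hw) _ ())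
    rw [ch_apply hz3] at h2
    rw [h2, inv_mul_eq_div, le_div_iff₀' (hm0 i)]
    exact hmb i z hz (ofS s i z)

end Vale.Agent.P281.H189.HK
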