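import Vale.Agent.P281.H842.HK.Man
import Vale.Agent.P301.H862.KZero

/-!
# P281, T-HK (helper189): forms of type `(*,0)` over sheets and the pre-Hilbert space of P301

`MF S` is `E` as a complex manifold in charts, `HBs hw` the trivial line bundle on it with the metric
`w`; `SmF S u`: `u` is a smooth form of type `(*,0)`, by its components in the Fock space over the
sheets.
-/

open Set Filter Metric MeasureTheory Vale.Agent.P272.K
open scoped Topology ContDiff ComplexConjugate ComplexOrder Manifold Matrix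

set_option linter.unusedSectionVars false

noncomputable section

namespace Vale.Agent.P281.H189.HK

open Vale.Agent.P281.H64.TK Vale.Agent.P281.H842.TS Vale.Agent.P281.H842.HK
open Vale.Agent.P301.H599 Vale.Agent.P301.H862 Vale.Agent.P299.IX Vale.Agent.P299.IX.Fock
open Vale.Agent.P299.H954 Vale.Agent.P272.K.C2

/-! ### the trivial line bundle -/

section triv

variable {d : ℕ} {X : Type} [TopologicalSpace X] [ChartedSpace (Cm d) X]

variable (d X) in
/-- the trivial line bundle -/
def trivL : LineBundle d X Unit where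
  U _ := univ
  isOpen _ := isOpen_univ
  cover _ := ⟨(), mem_univ _⟩
  g _ _ _ := 1
  holo _ _ _ _ _ _ _ := analyticAt_const
  ne_zero _ _ _ _ _ := one_ne_zero
  cocycle _ _ _ _ _ _ _ := one_mul _

theorem trivM : IsMetric (trivL d X) (fun _ _ => (0 : ℝ)) where
  smooth _ _ _ _ _ := contDiffAt_const
  change _ _ _ _ _ := by
    show (0 : ℝ) = 0 + Real.log (‖(1 : ℂ)‖ ^ 2)
    simp

/-- the trivial bundle with the metric `1` on a Kähler manifold -/
def trivB {w : Chart d X → Cm d → Matrix (Fin d) (Fin d) ℂ} (hw : IsKahler w) : HB d X Unit :=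
  ⟨trivL d X, fun _ _ => 0, w, trivM, hw⟩

end triv

variable {d : ℕ} {E Γ : Type} [TopologicalSpace E] [Group Γ] [Subsingleton Γ] [MulAction Γ E]

/-- `E`, as a complex manifold -/
def MF (_ : Sheets d E Γ) : Type := E

section inst
variable (S : Sheets d E Γ)

/-- the topology of `MF S` (these are local instances: a global one slows down every search) -/
@[implicit_reducible] def instTop : TopologicalSpace (MF S) := ‹TopologicalSpace E›

attribute [local instance] instTop

theorem instT2 [h : T2Space E] : T2Space (MF S) := h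

/-- the charts of `MF S` -/
@[implicit_reducible] def instCh : ChartedSpace (Cm d) (MF S) :=
  @charted d E Γ _ _ _ _ S

attribute [local instance] instCh

theorem instMan : IsManifold 𝓘(ℂ, Cm d) ω (MF S) := @isManifold d E Γ _ _ _ _ S

theorem instCpt : CompactSpace (MF S) := @compactSpace d E Γ _ _ _ _ S

end inst

attribute [local instance] instTop instT2 instCh instMan instCpt

section charts
variable (S : Sheets d E Γ)

/-- the charts -/
def ch (i : Fin S.N) : Chart d (MF S) := (ph S i).symm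

/-- the sheets -/
def sg (i : Fin S.N) (z : Cm d) : MF S := S.σ i z

theorem ch_mem (i : Fin S.N) : ch S i ∈ atlas (Cm d) (MF S) := ⟨i, rfl⟩

theorem ch_target (i : Fin S.N) : (ch S i).target = ball 0 3 := rfl

theorem ch_source (i : Fin S.N) : (ch S i).source = sg S i '' ball 0 3 := rfl

theorem ch_symm_apply (i : Fin S.N) (z : Cm d) : (ch S i).symm z = sg S i z := rfl

variable {S} {i j : Fin S.N} {z z' : Cm d}

theorem ch_at (hz : z ∈ ball (0 : Cm d) 3) : At (ch S i) (sg S i z) := ⟨ch_mem S i, z, hz, rfl⟩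

theorem ch_apply (hz : z ∈ ball (0 : Cm d) 3) : ch S i (sg S i z) = z := ph_symm S i hz

theorem at_ch {e : Chart d (MF S)} {x : MF S} (h : At e x) :
    ∃ i, e = ch S i ∧ ∃ z ∈ ball (0 : Cm d) 3, sg S i z = x := (at_iff S e x).1 h

theorem ch_inj (h : ch S i = ch S j) (z : Cm d) : S.σ i z = S.σ j z := by
  have h1 := congrArg (fun e : Chart d (MF S) => e.symm z) h
  exact h1

theorem jacM_ch {θ : Cm d → Cm d} (hz : z ∈ ball (0 : Cm d) 3) (hz' : z' ∈ ball (0 : Cm d) 3)
    (hθ : AnalyticAt ℂ θ z) (he : θ z = z') (h : ∀ᶠ u in 𝓝 z, S.σ i u = S.σ j (θ u)) :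
    jacM (ch S i) (ch S j) (sg S i z) = jac θ z := by
  have h1 : S.σ i z = S.σ j z' := by rw [h.self_of_nhds, he]
  have h2 := jacM_eq S (mem_UU hz hz' h1)
  rw [Vale.Agent.P281.H864.K.jac_congr
    (tt_loc hθ.continuousAt (by rw [he]; exact hz') h)] at h2
  exact h2

end charts

/-- `u` is a smooth form of type `(*,0)` (components in the Fock space) -/
structure SmF (S : Sheets d E Γ) (u : Fin S.N → Cm d → FI d → ℂ) : Prop where
  smooth : ∀ i I, ContDiffOn ℝ ∞ (fun z => u i z I) (ball 0 3)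
  change : ∀ i j, ∀ z ∈ ball (0 : Cm d) 3, ∀ z' ∈ ball (0 : Cm d) 3, ∀ θ : Cm d → Cm d,
    AnalyticAt ℂ θ z → θ z = z' → (∀ᶠ u in 𝓝 z, S.σ i u = S.σ j (θ u)) →
      u i z = lam (jac θ z)ᵀ *ᵥ u j z'

section secs
variable {S : Sheets d E Γ} {w : Fin S.N → Cm d → Matrix (Fin d) (Fin d) ℂ}

/-- the trivial line bundle on `E` with the metric `w` -/
def HBs (hw : Kah S w) : HB d (MF S) Unit := (trivB (X := MF S) (@isKahler d E Γ _ _ _ _ S w hw)).pow 0

variable {hw : Kah S w} {u : Fin S.N → Cm d → FI d → ℂ} {i j : Fin S.N} {z z' : Cm d}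

theorem hbs_w (hz : z ∈ ball (0 : Cm d) 3) : (HBs hw).w (ch S i) z = w i z := wC_eq hw i hz

theorem hbs_U (x : MF S) (a : Unit) : x ∈ (HBs hw).L.U a := mem_univ _

theorem wt_zero (a : Unit) (e : Chart d (MF S)) : wt (HBs hw).ρ a e = fun _ => (0 : ℝ) := by
  funext z
  show ((0 : ℕ) : ℝ) * _ = 0
  rw [Nat.cast_zero, zero_mul]

open Classical in
/-- the components in the charts -/
def toFam (S : Sheets d E Γ) (u : Fin S.N → Cm d → FI d → ℂ) : Fam d (MF S) Unit := fun _ e z =>
  if h : ∃ i, e = ch S i then u h.choose z else 0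

theorem toFam_eq (hu : SmF S u) (a : Unit) (hz : z ∈ ball (0 : Cm d) 3) :
    toFam S u a (ch S i) z = u i z := by
  have h : ∃ j, ch S i = ch S j := ⟨i, rfl⟩
  unfold toFam
  rw [dif_pos h]
  have h5 := hu.change h.choose i z hz z hz (fun u => u) analyticAt_id rfl
    (Eventually.of_forall fun u => (ch_inj h.choose_spec u).symm)
  rw [h5, jac_id', Matrix.transpose_one, lam_one, Matrix.one_mulVec]

theorem isSec_toFam (hw : Kah S w) (hu : SmF S u) : IsSec (HBs hw).L (toFam S u) where
  smooth a e x hx _ := by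
    obtain ⟨i, rfl, z, hz, rfl⟩ := at_ch hx
    intro I
    rw [ch_apply hz]
    refine ((hu.smooth i I).contDiffAt (isOpen_ball.mem_nhds hz)).congr_of_eventuallyEq ?_
    filter_upwards [isOpen_ball.mem_nhds hz] with y hy
    rw [toFam_eq hu a hy]
  change a b e e' x hx hx' _ _ := by
    obtain ⟨i, rfl, z, hz, rfl⟩ := at_ch hx
    obtain ⟨j, rfl, z', hz', he⟩ := at_ch hx'
    have hU : z ∈ UU S i j := mem_UU hz hz' he.symm
    have h1 : (ch S j) (sg S i z) = z' := by rw [← he, ch_apply hz']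
    have h2 : tt S i j z = z' := tt_eq hz' he.symm
    rw [ch_apply hz, h1, toFam_eq hu a hz, toFam_eq hu b hz']
    show _ = ((1 : ℂ) ^ 0 • lam (jacM (ch S i) (ch S j) (sg S i z))ᵀ) *ᵥ _
    rw [pow_zero, one_smul, jacM_ch hz hz' (tt_an hU) h2 (tt_sig hU)]
    exact hu.change i j z hz z' hz' _ (tt_an hU) h2 (tt_sig hU)

/-- the section of a form -/
def toS (hw : Kah S w) (hu : SmF S u) : (HBs hw).S := HB.mkS _ (isSec_toFam hw hu)

/-- the form of a section -/
def ofS (s : (HBs hw).S) (i : Fin S.N) (z : Cm d) : FI d → ℂ := s.f () (ch S i) z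

theorem ofS_eq (s : (HBs hw).S) (a : Unit) (i : Fin S.N) (z : Cm d) :
    s.f a (ch S i) z = ofS s i z := rfl

theorem ofS_toS (hu : SmF S u) (hz : z ∈ ball (0 : Cm d) 3) : ofS (toS hw hu) i z = u i z := by
  have h1 := HB.mkS_at (isSec_toFam hw hu) (i := ()) (ch_at (i := i) hz) (hbs_U _ _)
  rw [ch_apply hz, toFam_eq hu () hz] at h1
  exact h1

theorem smF_ofS (s : (HBs hw).S) : SmF S (ofS s) where
  smooth i I z hz := by
    have h1 := s.isSec.smooth () (ch S i) (sg S i z) (ch_at hz) (hbs_U _ _) I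
    rw [ch_apply hz] at h1
    exact h1.contDiffWithinAt
  change i j z hz z' hz' θ hθ he h := by
    have hx : At (ch S i) (sg S i z) := ch_at hz
    have h0 : sg S i z = sg S j z' := by
      show S.σ i z = S.σ j z'
      rw [h.self_of_nhds, he]
    have hx' : At (ch S j) (sg S i z) := by rw [h0]; exact ch_at hz'
    have h1 := s.isSec.change () () (ch S i) (ch S j) _ hx hx' (hbs_U _ _) (hbs_U _ _)
    have h2 : (ch S j) (sg S i z) = z' := by rw [h0, ch_apply hz']
    rw [ch_apply hz, h2] at h1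
    have h3 : ((HBs hw).L.g () () (sg S i z) • lam (jacM (ch S i) (ch S j) (sg S i z))ᵀ) =
        lam (jac θ z)ᵀ := by
      show ((1 : ℂ) ^ 0 • lam (jacM (ch S i) (ch S j) (sg S i z))ᵀ) = _
      rw [pow_zero, one_smul, jacM_ch hz hz' hθ he h]
    rw [h3] at h1
    exact h1

theorem ofS_sub (s t : (HBs hw).S) : ofS (s - t) i z = ofS s i z - ofS t i z := rfl

theorem ofS_ext {s t : (HBs hw).S} (h : ∀ i, ∀ z ∈ ball (0 : Cm d) 3, ofS s i z = ofS t i z) :
    s = t := by
  apply HB.S.ext_f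
  intro a e x hx _
  obtain ⟨i, rfl, z, hz, rfl⟩ := at_ch hx
  rw [ch_apply hz]
  exact h i z hz

/-- `D'` -/
theorem ofS_Dp [T2Space E] (s : (HBs hw).S) (hz : z ∈ ball (0 : Cm d) 3) :
    ofS ((HBs hw).Dp s) i z = ∑ l, eps l *ᵥ DV l (ofS s i) z := by
  have h1 := (HBs hw).Dp_at s (i := ()) (ch_at (i := i) hz) (hbs_U _ _)
  rw [ch_apply hz, wt_zero] at h1
  rw [← ofS_eq _ (), h1]
  unfold Dw
  refine Finset.sum_congr rfl fun l _ => ?_
  have h2 : dz l (cw fun _ : Cm d => (0 : ℝ)) z = 0 := by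
    have : (cw fun _ : Cm d => (0 : ℝ)) = fun _ => (((0 : ℝ) : ℝ) : ℂ) := rfl
    rw [this]
    exact C2.dz_const l _
  rw [h2, zero_smul, sub_zero]
  rfl

/-- degree -/
theorem ofS_dg [T2Space E] (p : ℕ) (s : (HBs hw).S) (hz : z ∈ ball (0 : Cm d) 3) (I : FI d) :
    ofS ((HBs hw).dg p s) i z I = if I.card = p then ofS s i z I else 0 := by
  have h1 := HB.dgc_at (B := HBs hw) (fun q => if q = p then 1 else 0) s (i := ())
    (ch_at (i := i) hz) (hbs_U _ _)
  rw [ch_apply hz] at h1
  have h2 := congrFun h1 I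
  rw [dgl_mulVec] at h2
  show (((HBs hw).dg p s).f () (ch S i) z) I = _
  unfold HB.dg
  rw [h2]
  split_ifs with h
  · rw [one_mul]; rfl
  · rw [zero_mul]

end secs

end Vale.Agent.P281.H189.HK
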